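import Mathlib
import Crest.Prelude.Def_BoxFlow
import Crest.Agent.Helper25.BoxPlanDefs

/-!
# S0170: generic lemmas on `Reach` and the final glue of the motion plan
-/

set_option autoImplicit false

namespace Crest.Agent.Helper21

open Crest.Agent.Helper11

variable {n : ℕ} {O O' : Fin n → Set E3} {P Q R : Fin n → E3 → E3}

theorem reach_trans (h1 : Reach O P Q) (h2 : Reach O Q R) : Reach O P R := by
  induction h1 with
  | refl P => exact h2
  | step M P Q' R' h rest ih => exact Reach.step M P Q' R h (ih h2)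

theorem reach_single (M : Move) (P Q : Fin n → E3 → E3)
    (h : ∀ i, ∀ x ∈ O i, (P i x ∈ M.inner ∧ M.map (P i x) ∈ M.inner ∧ Q i x = M.map (P i x)) ∨
        (P i x ∈ M.outer ∧ Q i x = P i x)) : Reach O P Q :=
  Reach.step M P Q Q h (Reach.refl Q)

theorem reach_mono (hO : ∀ i, O' i ⊆ O i) (h : Reach O P Q) : Reach O' P Q := by
  induction h with
  | refl P => exact Reach.refl P
  | step M P Q R h rest ih => exact Reach.step M P Q R (fun i x hx => h i x (hO i hx)) ih

theorem reach_reparam (φ : Fin n → E3 → E3) (hφ : ∀ i, Set.MapsTo (φ i) (O' i) (O i))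
    (h : Reach O P Q) : Reach O' (fun i x => P i (φ i x)) (fun i x => Q i (φ i x)) := by
  induction h with
  | refl P => exact Reach.refl _
  | step M P Q R h rest ih =>
    exact Reach.step M _ _ _ (fun i x hx => h i (φ i x) (hφ i hx)) ih

theorem move_map_apply (M : Move) (y : E3) (m : Fin 3) :
    M.map y m = if m = M.j then y m + ((M.α : ℝ) + M.κ * (y M.l - M.c)) else y m := by
  unfold Move.map
  by_cases h : m = M.j
  · subst h; simp
  · simp [h]

/-- The reverse move. -/
def moveRev (M : Move) : Move :=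
  { M with
    α := -M.α
    κ := -M.κ
    hkind := by rcases M.hkind with h | h <;> simp [h] }

theorem moveRev_map_map (M : Move) (y : E3) : (moveRev M).map (M.map y) = y := by
  funext m
  have hl : M.map y M.l = y M.l := by
    rw [move_map_apply, if_neg (Ne.symm M.hjl)]
  rw [move_map_apply]
  show (if m = M.j then M.map y m + (((-M.α : ℚ) : ℝ) + ((-M.κ : ℚ) : ℝ) * (M.map y M.l - M.c))
    else M.map y m) = y m
  rw [hl, move_map_apply]
  by_cases h : m = M.j
  · simp only [h, if_true]; push_cast; ring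
  · simp only [h, if_false]

theorem reach_symm (h : Reach O P Q) : Reach O Q P := by
  induction h with
  | refl P => exact Reach.refl P
  | step M P Q R h rest ih =>
    refine reach_trans ih (reach_single (moveRev M) Q P ?_)
    intro i x hx
    rcases h i x hx with ⟨h1, h2, h3⟩ | ⟨h1, h2⟩
    · left
      refine ⟨?_, ?_, ?_⟩
      · rw [h3]; exact h2
      · rw [h3, moveRev_map_map]; exact h1
      · rw [h3, moveRev_map_map]
    · right
      exact ⟨by rw [h2]; exact h1, h2.symm⟩

/-- One step in which the body `i₀` moves and all other bodies rest. -/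
theorem reach_move_body (M : Move) (i₀ : Fin n) (P Q : Fin n → E3 → E3)
    (hbody : ∀ x ∈ O i₀, P i₀ x ∈ M.inner ∧ M.map (P i₀ x) ∈ M.inner ∧ Q i₀ x = M.map (P i₀ x))
    (hrest : ∀ i, i ≠ i₀ → ∀ x ∈ O i, P i x ∈ M.outer ∧ Q i x = P i x) : Reach O P Q :=
  reach_single M P Q (fun i x hx => by
    by_cases hi : i = i₀
    · subst hi; exact Or.inl (hbody x hx)
    · exact Or.inr (hrest i hi x hx))

/-! ### Final glue: two "explode" plans with a common canonical configuration -/

open Crest.AnalysisR.BoxFlow in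
/-- The target affine map of `S0170` for one box. -/
def tgtMap (a b h k : Fin 3 → ℚ) (x : E3) : E3 :=
  fun j => (b j : ℝ) + ((k j / h j : ℚ) : ℝ) * (x j - (a j : ℝ))

theorem continuous_tgtMap (a b h k : Fin 3 → ℚ) : Continuous (tgtMap a b h k) := by
  unfold tgtMap
  fun_prop

open Crest.AnalysisR.BoxFlow in
theorem tgtMap_mem_box (a b h k : Fin 3 → ℚ) (hh : ∀ j, 0 < h j) (hk : ∀ j, 0 < k j)
    {x : E3} (hx : x ∈ box a h) : tgtMap a b h k x ∈ box b k := by
  intro j
  have hx' := hx j
  have hhj : (0 : ℝ) < h j := by exact_mod_cast hh j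
  have hkj : (0 : ℝ) < k j := by exact_mod_cast hk j
  show |(b j : ℝ) + ((k j / h j : ℚ) : ℝ) * (x j - (a j : ℝ)) - (b j : ℝ)| ≤ (k j : ℝ)
  have e : (b j : ℝ) + ((k j / h j : ℚ) : ℝ) * (x j - (a j : ℝ)) - (b j : ℝ)
      = (k j : ℝ) / (h j : ℝ) * (x j - (a j : ℝ)) := by push_cast; ring
  rw [e, abs_mul, abs_of_pos (div_pos hkj hhj)]
  calc (k j : ℝ) / (h j : ℝ) * |x j - (a j : ℝ)| ≤ (k j : ℝ) / (h j : ℝ) * (h j : ℝ) :=
        mul_le_mul_of_nonneg_left hx' (div_pos hkj hhj).le
    _ = (k j : ℝ) := by field_simp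

open Crest.AnalysisR.BoxFlow in
/-- **Final glue.** If the source boxes can be exploded to a configuration `C` and the target
boxes to a configuration `C'` which agree under the target affine maps, then the plan of
`S0170` exists. -/
theorem plan_glue {n : ℕ} (a b h k : Fin n → Fin 3 → ℚ)
    (hh : ∀ i j, 0 < h i j) (hk : ∀ i j, 0 < k i j)
    (O O' : Fin n → Set E3) (C C' : Fin n → E3 → E3)
    (hO : ∀ i, IsOpen (O i)) (hO' : ∀ i, IsOpen (O' i))
    (hbox : ∀ i, box (a i) (h i) ⊆ O i) (hbox' : ∀ i, box (b i) (k i) ⊆ O' i)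
    (hsrc : Reach O (fun _ x => x) C) (htgt : Reach O' (fun _ x => x) C')
    (hC : ∀ i x, C' i (tgtMap (a i) (b i) (h i) (k i) x) = C i x) :
    ∃ O'' : Fin n → Set E3, (∀ i, IsOpen (O'' i)) ∧ (∀ i, box (a i) (h i) ⊆ O'' i) ∧
      Reach O'' (fun _ x => x)
        (fun i x j => (b i j : ℝ) + ((k i j / h i j : ℚ) : ℝ) * (x j - (a i j : ℝ))) := by
  refine ⟨fun i => O i ∩ (tgtMap (a i) (b i) (h i) (k i)) ⁻¹' (O' i), fun i => ?_, fun i => ?_, ?_⟩
  · exact (hO i).inter ((hO' i).preimage (continuous_tgtMap _ _ _ _))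
  · intro x hx
    exact ⟨hbox i hx, hbox' i (tgtMap_mem_box _ _ _ _ (hh i) (hk i) hx)⟩
  · have h1 : Reach (fun i => O i ∩ (tgtMap (a i) (b i) (h i) (k i)) ⁻¹' (O' i))
        (fun _ x => x) C :=
      reach_mono (fun i => Set.inter_subset_left) hsrc
    have h2 : Reach (fun i => O i ∩ (tgtMap (a i) (b i) (h i) (k i)) ⁻¹' (O' i))
        (fun i x => C' i (tgtMap (a i) (b i) (h i) (k i) x))
        (fun i x => tgtMap (a i) (b i) (h i) (k i) x) :=
      reach_reparam (fun i => tgtMap (a i) (b i) (h i) (k i))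
        (fun i x hx => hx.2) (reach_symm htgt)
    have e : (fun i x => C' i (tgtMap (a i) (b i) (h i) (k i) x)) = C := by
      funext i x; exact hC i x
    rw [e] at h2
    exact reach_trans h1 h2

end Crest.Agent.Helper21
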