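import Mathlib
import Crest.Prelude.Def_AsymptoticConvexity
import Crest.Prelude.Def_Diamond

/-!
# Diamond graphs do not embed with small distortion into spaces with a good max-midpoint modulus

Module S0166-DIAMOND of the row-125 team build.
-/

set_option autoImplicit false

namespace Crest.Agent.Helper21.Diamond

open Crest.AnalysisR

section Fork

variable {X : Type*} [NormedAddCommGroup X] [NormedSpace ℝ X]

/-- `t ↦ max ‖x + t y‖ ‖x - t y‖` is nondecreasing on `[0, ∞)`. -/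
theorem max_norm_mono (x y : X) {t₀ t : ℝ} (h0 : 0 ≤ t₀) (h : t₀ ≤ t) :
    max ‖x + t₀ • y‖ ‖x - t₀ • y‖ ≤ max ‖x + t • y‖ ‖x - t • y‖ := by
  rcases eq_or_lt_of_le (h0.trans h) with ht | ht
  · have h00 : t₀ = 0 := le_antisymm (ht ▸ h) h0
    rw [h00, ← ht]
  · obtain ⟨lam, hlam⟩ : ∃ lam : ℝ, lam = (1 + t₀ / t) / 2 := ⟨_, rfl⟩
    have hd0 : 0 ≤ t₀ / t := div_nonneg h0 ht.le
    have hd1 : t₀ / t ≤ 1 := (div_le_one ht).2 h
    have hl1 : 0 ≤ lam := by rw [hlam]; linarith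
    have hl2 : lam ≤ 1 := by rw [hlam]; linarith
    have e0 : (2 * lam - 1) * t = t₀ := by rw [hlam]; field_simp; ring
    have e1 : x + t₀ • y = lam • (x + t • y) + (1 - lam) • (x - t • y) := by
      rw [← e0]; module
    have e2 : x - t₀ • y = (1 - lam) • (x + t • y) + lam • (x - t • y) := by
      rw [← e0]; module
    have hA := le_max_left ‖x + t • y‖ ‖x - t • y‖
    have hB := le_max_right ‖x + t • y‖ ‖x - t • y‖
    have hl3 : 0 ≤ 1 - lam := by linarith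
    apply max_le
    · rw [e1]
      calc ‖lam • (x + t • y) + (1 - lam) • (x - t • y)‖
          ≤ ‖lam • (x + t • y)‖ + ‖(1 - lam) • (x - t • y)‖ := norm_add_le _ _
        _ = lam * ‖x + t • y‖ + (1 - lam) * ‖x - t • y‖ := by
            rw [norm_smul, norm_smul, Real.norm_of_nonneg hl1, Real.norm_of_nonneg hl3]
        _ ≤ lam * max ‖x + t • y‖ ‖x - t • y‖ + (1 - lam) * max ‖x + t • y‖ ‖x - t • y‖ := by
            gcongr
        _ = max ‖x + t • y‖ ‖x - t • y‖ := by ring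
    · rw [e2]
      calc ‖(1 - lam) • (x + t • y) + lam • (x - t • y)‖
          ≤ ‖(1 - lam) • (x + t • y)‖ + ‖lam • (x - t • y)‖ := norm_add_le _ _
        _ = (1 - lam) * ‖x + t • y‖ + lam * ‖x - t • y‖ := by
            rw [norm_smul, norm_smul, Real.norm_of_nonneg hl1, Real.norm_of_nonneg hl3]
        _ ≤ (1 - lam) * max ‖x + t • y‖ ‖x - t • y‖ + lam * max ‖x + t • y‖ ‖x - t • y‖ := by
            gcongr
        _ = max ‖x + t • y‖ ‖x - t • y‖ := by ring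

/-- A bounded sequence has two terms which are `ε`-close modulo a closed subspace of finite
codimension. -/
theorem exists_close_mod (S : Submodule ℝ X) (hS : IsClosed (S : Set X))
    [FiniteDimensional ℝ (X ⧸ S)] (y : ℕ → X) (L : ℝ) (hy : ∀ i, ‖y i‖ ≤ L) {ε : ℝ}
    (hε : 0 < ε) : ∃ i j, i ≠ j ∧ ∃ v ∈ S, ‖y i - y j - v‖ < ε := by
  have : IsClosed (S : Set X) := hS
  have : ProperSpace (X ⧸ S) := FiniteDimensional.proper_real (X ⧸ S)
  have hb : ∀ n, (Submodule.Quotient.mk (y n) : X ⧸ S) ∈ Metric.closedBall (0 : X ⧸ S) L :=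
    fun n => by
      rw [mem_closedBall_zero_iff]
      exact (Submodule.Quotient.norm_mk_le S (y n)).trans (hy n)
  obtain ⟨a, -, φ, hφ, hlim⟩ := tendsto_subseq_of_bounded Metric.isBounded_closedBall hb
  obtain ⟨N, hN⟩ := (Metric.tendsto_atTop.1 hlim) (ε / 2) (half_pos hε)
  refine ⟨φ N, φ (N + 1), (hφ (Nat.lt_succ_self N)).ne, ?_⟩
  have h1 := hN N le_rfl
  have h2 := hN (N + 1) (Nat.le_succ N)
  have h3 : ‖(Submodule.Quotient.mk (y (φ N) - y (φ (N + 1))) : X ⧸ S)‖ < ε := by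
    rw [Submodule.Quotient.mk_sub, ← dist_eq_norm]
    calc dist (Submodule.Quotient.mk (y (φ N)) : X ⧸ S) (Submodule.Quotient.mk (y (φ (N + 1))))
        ≤ dist (Submodule.Quotient.mk (y (φ N)) : X ⧸ S) a
          + dist a (Submodule.Quotient.mk (y (φ (N + 1)))) := dist_triangle _ _ _
      _ < ε / 2 + ε / 2 := add_lt_add h1 (by rw [dist_comm]; exact h2)
      _ = ε := add_halves ε
  obtain ⟨m, hm, hmn⟩ := QuotientAddGroup.norm_lt_iff.1 h3
  refine ⟨y (φ N) - y (φ (N + 1)) - m, ?_, ?_⟩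
  · exact (Submodule.Quotient.eq S).1 hm.symm
  · have : y (φ N) - y (φ (N + 1)) - (y (φ N) - y (φ (N + 1)) - m) = m := by abel
    rw [this]; exact hmn

/-- **Fork lemma.** In a space with max-midpoint modulus `≥ √(1 + t²/4) - 1`, if countably
many `σ`-separated points `z i` are all within `L` of both `a` and `b`, then
`‖a - b‖² ≤ 4 L² - σ²/4`. -/
theorem fork
    (hmax : ∀ t : ℝ, 0 < t → ∀ x : X, ‖x‖ = 1 → ∀ η : ℝ, 0 < η → ∃ S : Submodule ℝ X,
      IsClosed (S : Set X) ∧ FiniteDimensional ℝ (X ⧸ S) ∧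
      ∀ y ∈ S, ‖y‖ = 1 → Real.sqrt (1 + t ^ 2 / 4) - 1 - η ≤ max ‖x + t • y‖ ‖x - t • y‖ - 1)
    (a b : X) (z : ℕ → X) (L σ : ℝ) (hσ : 0 < σ)
    (h1 : ∀ i, ‖a - z i‖ ≤ L) (h2 : ∀ i, ‖z i - b‖ ≤ L)
    (h3 : ∀ i j, i ≠ j → σ ≤ ‖z i - z j‖) :
    ‖a - b‖ ^ 2 ≤ 4 * L ^ 2 - σ ^ 2 / 4 := by
  obtain ⟨w, hw⟩ : ∃ w : X, w = (1 / 2 : ℝ) • (a - b) := ⟨_, rfl⟩
  obtain ⟨y, hy⟩ : ∃ y : ℕ → X, y = fun i => z i - (1 / 2 : ℝ) • (a + b) := ⟨_, rfl⟩
  have e1 : ∀ i, a - z i = w - y i := fun i => by rw [hw, hy]; module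
  have e2 : ∀ i, z i - b = w + y i := fun i => by rw [hw, hy]; module
  have hL1 : ∀ i, ‖w - y i‖ ≤ L := fun i => e1 i ▸ h1 i
  have hL2 : ∀ i, ‖w + y i‖ ≤ L := fun i => e2 i ▸ h2 i
  have hyy : ∀ i j, y i - y j = z i - z j := fun i j => by
    rw [hy]; exact sub_sub_sub_cancel_right _ _ _
  have hL0 : 0 ≤ L := (norm_nonneg _).trans (h1 0)
  have hyL : ∀ i, ‖y i‖ ≤ L := fun i => by
    have e : y i = (1 / 2 : ℝ) • ((w + y i) - (w - y i)) := by module
    have h4 := norm_sub_le (w + y i) (w - y i)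
    have h5 := hL1 i
    have h6 := hL2 i
    rw [e, norm_smul, Real.norm_of_nonneg (by norm_num : (0 : ℝ) ≤ 1 / 2)]
    linarith
  have hab : a - b = (2 : ℝ) • w := by rw [hw]; module
  have hnab : ‖a - b‖ = 2 * ‖w‖ := by
    rw [hab, norm_smul, Real.norm_of_nonneg (by norm_num : (0 : ℝ) ≤ 2)]
  rw [hnab]
  have hσL : σ ≤ 2 * L := by
    have h4 := h3 0 1 (by norm_num)
    rw [← hyy] at h4
    have h5 := norm_sub_le (y 0) (y 1)
    have h6 := hyL 0
    have h7 := hyL 1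
    linarith
  by_cases hw0 : w = 0
  · rw [hw0, norm_zero]
    nlinarith
  have hwpos : 0 < ‖w‖ := norm_pos_iff.2 hw0
  have key : ∀ ε : ℝ, 0 < ε → ε < σ → ‖w‖ ^ 2 + (σ - ε) ^ 2 / 16 ≤ (L + ε / 2) ^ 2 := by
    intro ε hε hεσ
    have hσε : 0 < σ - ε := sub_pos.2 hεσ
    obtain ⟨t₀, ht₀⟩ : ∃ t₀ : ℝ, t₀ = (σ - ε) / (2 * ‖w‖) := ⟨_, rfl⟩
    have ht₀pos : 0 < t₀ := by rw [ht₀]; positivity
    have claim : ‖w‖ * Real.sqrt (1 + t₀ ^ 2 / 4) ≤ L + ε / 2 := by
      apply le_of_forall_pos_le_add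
      intro η' hη'
      obtain ⟨η, hη⟩ : ∃ η : ℝ, η = η' / ‖w‖ := ⟨_, rfl⟩
      have hηpos : 0 < η := by rw [hη]; positivity
      obtain ⟨x, hx⟩ : ∃ x : X, x = ‖w‖⁻¹ • w := ⟨_, rfl⟩
      have hx1 : ‖x‖ = 1 := by
        rw [hx, norm_smul, norm_inv, norm_norm, inv_mul_cancel₀ hwpos.ne']
      obtain ⟨S, hScl, hSfin, hS⟩ := hmax t₀ ht₀pos x hx1 η hηpos
      obtain ⟨i, j, hij, v, hvS, hv⟩ := exists_close_mod S hScl y L hyL hε
      have hvn : σ - ε ≤ ‖v‖ := by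
        have h4 := h3 i j hij
        rw [← hyy] at h4
        have h5 : ‖y i - y j‖ ≤ ‖y i - y j - v‖ + ‖v‖ := by
          have h6 := norm_add_le (y i - y j - v) v
          rwa [sub_add_cancel] at h6
        linarith
      have hvpos : 0 < ‖v‖ := by linarith
      obtain ⟨yy, hyy'⟩ : ∃ yy : X, yy = ‖v‖⁻¹ • v := ⟨_, rfl⟩
      have hyyS : yy ∈ S := by rw [hyy']; exact S.smul_mem _ hvS
      have hyy1 : ‖yy‖ = 1 := by
        rw [hyy', norm_smul, norm_inv, norm_norm, inv_mul_cancel₀ hvpos.ne']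
      have hS' := hS yy hyyS hyy1
      obtain ⟨t, ht⟩ : ∃ t : ℝ, t = ‖v‖ / (2 * ‖w‖) := ⟨_, rfl⟩
      have htt : t₀ ≤ t := by rw [ht₀, ht]; gcongr
      have hmono := max_norm_mono x yy ht₀pos.le htt
      have ex1 : x + t • yy = ‖w‖⁻¹ • (w + (1 / 2 : ℝ) • v) := by
        rw [hx, hyy', ht, smul_add, smul_smul, smul_smul]
        congr 2
        field_simp
      have ex2 : x - t • yy = ‖w‖⁻¹ • (w - (1 / 2 : ℝ) • v) := by
        rw [hx, hyy', ht, smul_sub, smul_smul, smul_smul]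
        congr 2
        field_simp
      obtain ⟨u, hu⟩ : ∃ u : X, u = (1 / 2 : ℝ) • (y i - y j) := ⟨_, rfl⟩
      have hhalf : ‖(1 / 2 : ℝ)‖ = 1 / 2 := Real.norm_of_nonneg (by norm_num)
      have hu1 : ‖w + u‖ ≤ L := by
        have e : w + u = (1 / 2 : ℝ) • (w + y i) + (1 / 2 : ℝ) • (w - y j) := by
          rw [hu]; module
        have h4 := norm_add_le ((1 / 2 : ℝ) • (w + y i)) ((1 / 2 : ℝ) • (w - y j))
        rw [norm_smul, norm_smul, hhalf] at h4
        have h5 := hL2 i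
        have h6 := hL1 j
        rw [e]; linarith
      have hu2 : ‖w - u‖ ≤ L := by
        have e : w - u = (1 / 2 : ℝ) • (w - y i) + (1 / 2 : ℝ) • (w + y j) := by
          rw [hu]; module
        have h4 := norm_add_le ((1 / 2 : ℝ) • (w - y i)) ((1 / 2 : ℝ) • (w + y j))
        rw [norm_smul, norm_smul, hhalf] at h4
        have h5 := hL1 i
        have h6 := hL2 j
        rw [e]; linarith
      have huv : ‖(1 / 2 : ℝ) • v - u‖ < ε / 2 := by
        have e : (1 / 2 : ℝ) • v - u = (1 / 2 : ℝ) • (-(y i - y j - v)) := by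
          rw [hu]; module
        rw [e, norm_smul, hhalf, norm_neg]
        linarith
      have hb1 : ‖w + (1 / 2 : ℝ) • v‖ ≤ L + ε / 2 := by
        have e : w + (1 / 2 : ℝ) • v = (w + u) + ((1 / 2 : ℝ) • v - u) := by abel
        have h4 := norm_add_le (w + u) ((1 / 2 : ℝ) • v - u)
        rw [e]; linarith
      have hb2 : ‖w - (1 / 2 : ℝ) • v‖ ≤ L + ε / 2 := by
        have e : w - (1 / 2 : ℝ) • v = (w - u) - ((1 / 2 : ℝ) • v - u) := by abel
        have h4 := norm_sub_le (w - u) ((1 / 2 : ℝ) • v - u)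
        rw [e]; linarith
      have hmax_le : max ‖x + t • yy‖ ‖x - t • yy‖ ≤ (L + ε / 2) / ‖w‖ := by
        rw [ex1, ex2, norm_smul, norm_smul, norm_inv, norm_norm]
        apply max_le
        · rw [inv_mul_eq_div]; gcongr
        · rw [inv_mul_eq_div]; gcongr
      have h8 : Real.sqrt (1 + t₀ ^ 2 / 4) - η ≤ (L + ε / 2) / ‖w‖ := by linarith
      have h9 : ‖w‖ * (Real.sqrt (1 + t₀ ^ 2 / 4) - η) ≤ L + ε / 2 := by
        calc ‖w‖ * (Real.sqrt (1 + t₀ ^ 2 / 4) - η) ≤ ‖w‖ * ((L + ε / 2) / ‖w‖) := by gcongr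
          _ = L + ε / 2 := by field_simp
      have h10 : ‖w‖ * η = η' := by rw [hη]; field_simp
      linarith
    have hsq : (‖w‖ * Real.sqrt (1 + t₀ ^ 2 / 4)) ^ 2 ≤ (L + ε / 2) ^ 2 :=
      pow_le_pow_left₀ (by positivity) claim 2
    rw [mul_pow, Real.sq_sqrt (by positivity)] at hsq
    have e : ‖w‖ ^ 2 * (1 + t₀ ^ 2 / 4) = ‖w‖ ^ 2 + (σ - ε) ^ 2 / 16 := by
      rw [ht₀]; field_simp; ring
    linarith
  by_contra hcon
  rw [not_le] at hcon
  obtain ⟨Δ, hΔdef⟩ : ∃ Δ : ℝ, Δ = ‖w‖ ^ 2 + σ ^ 2 / 16 - L ^ 2 := ⟨_, rfl⟩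
  have hΔ : 0 < Δ := by rw [hΔdef]; nlinarith
  obtain ⟨ε, hεdef⟩ : ∃ ε : ℝ, ε = min (σ / 2) (Δ / (2 * (L + σ + 1))) := ⟨_, rfl⟩
  have hden : 0 < 2 * (L + σ + 1) := by linarith
  have hε1 : 0 < ε := by rw [hεdef]; exact lt_min (by linarith) (div_pos hΔ hden)
  have hε2 : ε ≤ σ / 2 := by rw [hεdef]; exact min_le_left _ _
  have hε3 : ε ≤ Δ / (2 * (L + σ + 1)) := by rw [hεdef]; exact min_le_right _ _
  have hk := key ε hε1 (by linarith)
  have h7 : ε * (2 * (L + σ + 1)) ≤ Δ := by rwa [le_div_iff₀ hden] at hε3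
  have hA : 0 ≤ ε * L := mul_nonneg hε1.le hL0
  have hB : 0 ≤ ε * σ := mul_nonneg hε1.le hσ.le
  have hC : ε * ε ≤ ε * (σ / 2) := mul_le_mul_of_nonneg_left hε2 hε1.le
  nlinarith

end Fork

section Graph

theorem src_ne_tgt : ∀ (k : ℕ) (e : DiamondEdge k), diamondSrc k e ≠ diamondTgt k e
  | 0, _ => Bool.false_ne_true
  | k + 1, (e, i, b) => by
    cases b
    · exact Sum.inl_ne_inr
    · exact Sum.inr_ne_inl

theorem adj_src_tgt (k : ℕ) (e : DiamondEdge k) :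
    (diamondGraph k).Adj (diamondSrc k e) (diamondTgt k e) := by
  unfold diamondGraph
  rw [SimpleGraph.fromRel_adj]
  exact ⟨src_ne_tgt k e, Or.inl ⟨e, rfl, rfl⟩⟩

/-- A default edge. -/
def edge0 : (k : ℕ) → DiamondEdge k
  | 0 => ()
  | k + 1 => (edge0 k, 0, false)

theorem adj_inl_mid (k : ℕ) (e : DiamondEdge k) (i : ℕ) :
    (diamondGraph (k + 1)).Adj (Sum.inl (diamondSrc k e)) (Sum.inr (e, i)) :=
  adj_src_tgt (k + 1) (e, i, false)

theorem adj_mid_inl (k : ℕ) (e : DiamondEdge k) (i : ℕ) :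
    (diamondGraph (k + 1)).Adj (Sum.inr (e, i)) (Sum.inl (diamondTgt k e)) :=
  adj_src_tgt (k + 1) (e, i, true)

/-- Every adjacency of `D (k+1)` is one of the four oriented half-edges. -/
theorem adj_succ_cases (k : ℕ) {x y : DiamondVertex (k + 1)}
    (h : (diamondGraph (k + 1)).Adj x y) :
    ∃ (e : DiamondEdge k) (i : ℕ),
      (x = Sum.inl (diamondSrc k e) ∧ y = Sum.inr (e, i)) ∨
      (x = Sum.inr (e, i) ∧ y = Sum.inl (diamondTgt k e)) ∨
      (y = Sum.inl (diamondSrc k e) ∧ x = Sum.inr (e, i)) ∨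
      (y = Sum.inr (e, i) ∧ x = Sum.inl (diamondTgt k e)) := by
  unfold diamondGraph at h
  rw [SimpleGraph.fromRel_adj] at h
  obtain ⟨-, ⟨⟨e, i, b⟩, h1, h2⟩ | ⟨⟨e, i, b⟩, h1, h2⟩⟩ := h
  · refine ⟨e, i, ?_⟩
    cases b
    · exact Or.inl ⟨h1.symm, h2.symm⟩
    · exact Or.inr (Or.inl ⟨h1.symm, h2.symm⟩)
  · refine ⟨e, i, ?_⟩
    cases b
    · exact Or.inr (Or.inr (Or.inl ⟨h1.symm, h2.symm⟩))
    · exact Or.inr (Or.inr (Or.inr ⟨h1.symm, h2.symm⟩))

theorem reachable_lift (k : ℕ) {u v : DiamondVertex k} (h : (diamondGraph k).Reachable u v) :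
    (diamondGraph (k + 1)).Reachable (Sum.inl u) (Sum.inl v) := by
  obtain ⟨p⟩ := h
  induction p with
  | nil => exact SimpleGraph.Reachable.refl _
  | cons hadj _ ih =>
    refine SimpleGraph.Reachable.trans ?_ ih
    have hadj' := hadj
    unfold diamondGraph at hadj'
    rw [SimpleGraph.fromRel_adj] at hadj'
    obtain ⟨-, ⟨e, h1, h2⟩ | ⟨e, h1, h2⟩⟩ := hadj'
    · rw [← h1, ← h2]
      exact (adj_inl_mid k e 0).reachable.trans (adj_mid_inl k e 0).reachable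
    · rw [← h1, ← h2]
      exact ((adj_inl_mid k e 0).reachable.trans (adj_mid_inl k e 0).reachable).symm

theorem reachable_all : ∀ (k : ℕ) (u v : DiamondVertex k), (diamondGraph k).Reachable u v
  | 0, u, v => by
    have h := (adj_src_tgt 0 ()).reachable
    have hft : (diamondGraph 0).Reachable (false : Bool) (true : Bool) := h
    cases u <;> cases v
    · exact SimpleGraph.Reachable.refl _
    · exact hft
    · exact hft.symm
    · exact SimpleGraph.Reachable.refl _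
  | k + 1, u, v => by
    have hold : ∀ x : DiamondVertex (k + 1), ∃ w : DiamondVertex k,
        (diamondGraph (k + 1)).Reachable x (Sum.inl w) := by
      intro x
      cases x with
      | inl w => exact ⟨w, SimpleGraph.Reachable.refl _⟩
      | inr p => exact ⟨diamondSrc k p.1, (adj_inl_mid k p.1 p.2).reachable.symm⟩
    obtain ⟨w1, h1⟩ := hold u
    obtain ⟨w2, h2⟩ := hold v
    exact h1.trans ((reachable_lift k (reachable_all k w1 w2)).trans h2.symm)

/-- The potential used to compare distances in `D (k+1)` and `D k`. -/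
noncomputable def pot (k : ℕ) (u : DiamondVertex k) : DiamondVertex (k + 1) → ℕ :=
  Sum.elim (fun w => 2 * diamondDist k u w)
    (fun p => diamondDist k u (diamondSrc k p.1) + diamondDist k u (diamondTgt k p.1))

theorem pot_adj (k : ℕ) (u : DiamondVertex k) {x y : DiamondVertex (k + 1)}
    (h : (diamondGraph (k + 1)).Adj x y) : pot k u y ≤ pot k u x + 1 := by
  obtain ⟨e, i, hc⟩ := adj_succ_cases k h
  have hd := (adj_src_tgt k e).diff_dist_adj (u := u)
  have hd' : (diamondGraph k).dist u (diamondTgt k e) = (diamondGraph k).dist u (diamondSrc k e) ∨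
      (diamondGraph k).dist u (diamondTgt k e) = (diamondGraph k).dist u (diamondSrc k e) + 1 ∨
      (diamondGraph k).dist u (diamondTgt k e) = (diamondGraph k).dist u (diamondSrc k e) - 1 := hd
  rcases hc with ⟨rfl, rfl⟩ | ⟨rfl, rfl⟩ | ⟨rfl, rfl⟩ | ⟨rfl, rfl⟩ <;>
    simp only [pot, Sum.elim_inl, Sum.elim_inr, diamondDist] <;> omega

theorem pot_walk (k : ℕ) (u : DiamondVertex k) {x y : DiamondVertex (k + 1)}
    (p : (diamondGraph (k + 1)).Walk x y) : pot k u y ≤ pot k u x + p.length := by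
  induction p with
  | nil => simp
  | cons hadj p ih =>
    have := pot_adj k u hadj
    rw [SimpleGraph.Walk.length_cons]
    omega

theorem dist_inl_inl_ge (k : ℕ) (u v : DiamondVertex k) :
    2 * diamondDist k u v ≤ diamondDist (k + 1) (Sum.inl u) (Sum.inl v) := by
  obtain ⟨p, hp⟩ := (reachable_all (k + 1) (Sum.inl u) (Sum.inl v)).exists_walk_length_eq_dist
  have h := pot_walk k u p
  have h0 : pot k u (Sum.inl u) = 0 := by simp [pot, diamondDist]
  have h1 : pot k u (Sum.inl v) = 2 * diamondDist k u v := rfl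
  rw [h0, h1, hp] at h
  simpa [diamondDist] using h

theorem two_le_dist_mid (k : ℕ) (e : DiamondEdge k) (i j : ℕ) (hij : i ≠ j) :
    2 ≤ diamondDist (k + 1) (Sum.inr (e, i)) (Sum.inr (e, j)) := by
  have hne : (Sum.inr (e, i) : DiamondVertex (k + 1)) ≠ Sum.inr (e, j) := by
    intro h
    exact hij (Prod.ext_iff.1 (Sum.inr_injective h)).2
  have hnadj : ¬ (diamondGraph (k + 1)).Adj (Sum.inr (e, i)) (Sum.inr (e, j)) := by
    intro h
    obtain ⟨e', i', hc⟩ := adj_succ_cases k h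
    rcases hc with ⟨h1, -⟩ | ⟨-, h1⟩ | ⟨h1, -⟩ | ⟨-, h1⟩ <;> exact Sum.inr_ne_inl h1
  exact (reachable_all (k + 1) _ _).one_lt_dist_of_ne_of_not_adj hne hnadj

theorem dist_src_tgt (k : ℕ) (e : DiamondEdge k) :
    diamondDist k (diamondSrc k e) (diamondTgt k e) = 1 :=
  SimpleGraph.dist_eq_one_iff_adj.2 (adj_src_tgt k e)

end Graph

section Main

variable {X : Type*} [NormedAddCommGroup X] [NormedSpace ℝ X]

/-- Edge-Lipschitz form of the distortion bound. -/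
theorem edge_form
    (hmax : ∀ t : ℝ, 0 < t → ∀ x : X, ‖x‖ = 1 → ∀ η : ℝ, 0 < η → ∃ S : Submodule ℝ X,
      IsClosed (S : Set X) ∧ FiniteDimensional ℝ (X ⧸ S) ∧
      ∀ y ∈ S, ‖y‖ = 1 → Real.sqrt (1 + t ^ 2 / 4) - 1 - η ≤ max ‖x + t • y‖ ‖x - t • y‖ - 1) :
    ∀ (k : ℕ) (f : DiamondVertex k → X) (s L : ℝ), 0 < s →
      (∀ u v, s * (diamondDist k u v : ℝ) ≤ ‖f u - f v‖) →
      (∀ e, ‖f (diamondSrc k e) - f (diamondTgt k e)‖ ≤ L) →
      s ^ 2 * (1 + (k : ℝ) / 4) ≤ L ^ 2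
  | 0, f, s, L, hs, hlow, hup => by
    have h1 := hlow (diamondSrc 0 ()) (diamondTgt 0 ())
    rw [dist_src_tgt 0 ()] at h1
    have h2 := hup ()
    have h3 : s ≤ L := by
      have : s * ((1 : ℕ) : ℝ) ≤ L := h1.trans h2
      simpa using this
    have h4 : s ^ 2 ≤ L ^ 2 := pow_le_pow_left₀ hs.le h3 2
    simpa using h4
  | k + 1, f, s, L, hs, hlow, hup => by
    have hfork : ∀ e : DiamondEdge k,
        ‖f (Sum.inl (diamondSrc k e)) - f (Sum.inl (diamondTgt k e))‖ ^ 2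
          ≤ 4 * L ^ 2 - (2 * s) ^ 2 / 4 := by
      intro e
      refine fork hmax _ _ (fun i => f (Sum.inr (e, i))) L (2 * s) (by positivity) ?_ ?_ ?_
      · intro i; exact hup (e, i, false)
      · intro i; exact hup (e, i, true)
      · intro i j hij
        have h1 := hlow (Sum.inr (e, i)) (Sum.inr (e, j))
        have h2 : (2 : ℝ) ≤ (diamondDist (k + 1) (Sum.inr (e, i)) (Sum.inr (e, j)) : ℝ) := by
          exact_mod_cast two_le_dist_mid k e i j hij
        nlinarith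
    have hnn : 0 ≤ 4 * L ^ 2 - s ^ 2 := by
      have h1 := hfork (edge0 k)
      have h2 := sq_nonneg ‖f (Sum.inl (diamondSrc k (edge0 k))) -
        f (Sum.inl (diamondTgt k (edge0 k)))‖
      nlinarith
    have IH := edge_form hmax k (fun u => f (Sum.inl u)) (2 * s) (Real.sqrt (4 * L ^ 2 - s ^ 2))
      (by positivity)
      (fun u v => by
        have h1 := hlow (Sum.inl u) (Sum.inl v)
        have h2 : (2 : ℝ) * (diamondDist k u v : ℝ)
            ≤ (diamondDist (k + 1) (Sum.inl u) (Sum.inl v) : ℝ) := by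
          exact_mod_cast dist_inl_inl_ge k u v
        nlinarith)
      (fun e => by
        apply Real.le_sqrt_of_sq_le
        have h1 := hfork e
        nlinarith)
    rw [Real.sq_sqrt hnn] at IH
    push_cast
    nlinarith

/-- **S0166-DIAMOND.** -/
theorem _root_.Crest.Agent.Helper21.diamond_distortion (E : RealBanach)
    (hmax : ∀ t : ℝ, 0 < t →
      E.MaxMidpointModulusGE E.norm t (Real.sqrt (1 + t ^ 2 / 4) - 1)) :
    ∀ (k : ℕ) (f : DiamondVertex k → E.X) (D : ℝ),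
      E.HasDistortionLE k f D → 1 + (k : ℝ) / 4 ≤ D ^ 2 := by
  let _ := E.normed
  let _ := E.space
  intro k f D hD
  obtain ⟨s, hs, h⟩ := hD
  have hmax' : ∀ t : ℝ, 0 < t → ∀ x : E.X, ‖x‖ = 1 → ∀ η : ℝ, 0 < η → ∃ S : Submodule ℝ E.X,
      IsClosed (S : Set E.X) ∧ FiniteDimensional ℝ (E.X ⧸ S) ∧
      ∀ y ∈ S, ‖y‖ = 1 →
        Real.sqrt (1 + t ^ 2 / 4) - 1 - η ≤ max ‖x + t • y‖ ‖x - t • y‖ - 1 := by
    intro t ht x hx η hη
    obtain ⟨F, ⟨S, hSF, hcl, hfin⟩, hF⟩ := hmax t ht x hx η hη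
    refine ⟨S, hSF ▸ hcl, hfin, fun y hy hy1 => ?_⟩
    exact hF y (hSF ▸ hy) hy1
  have key := edge_form hmax' k f s (D * s) hs (fun u v => (h u v).1) (fun e => by
    have h1 := (h (diamondSrc k e) (diamondTgt k e)).2
    rw [dist_src_tgt k e] at h1
    simpa using h1)
  have hs2 : 0 < s ^ 2 := by positivity
  have h5 : s ^ 2 * (1 + (k : ℝ) / 4) ≤ s ^ 2 * D ^ 2 := by
    rw [mul_pow] at key; linarith
  exact le_of_mul_le_mul_left h5 hs2

end Main

end Crest.Agent.Helper21.Diamond
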