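import Crest.Agent.Helper17.SnakyDefs

/-!
Symmetry of the Snaky certificate checker `chk` (statement S0047).

The eight symmetries of the 32 x 32 window about the centre cell `(16, 16)` (code 528) act on
cells (`mapCell`), on certificates (`mapAlts`) and on bitmasks (`mapMask`).  `chk_map` says that a
certificate accepted by `chk` stays accepted after a symmetry, with the transformed carriers,
provided no stone involved lies in the rows/columns `0 .. 4` of the window (`border`).
-/

set_option autoImplicit false

namespace Crest.Agent.Helper21.SnakySym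

open Crest.Agent.Helper17.Snaky

/-- Bitmask whose bit `j` (for `j < n`) is `f j`. -/
def ofFn (f : Nat → Bool) : Nat → Nat
  | 0 => 0
  | n + 1 => ofFn f n ||| (bif f n then 1 <<< n else 0)

theorem testBit_ofFn (f : Nat → Bool) (n j : Nat) :
    (ofFn f n).testBit j = (decide (j < n) && f j) := by
  induction n with
  | zero => simp [ofFn]
  | succ n ih =>
    rw [ofFn, Nat.testBit_or, ih]
    by_cases hj : j = n
    · subst hj
      by_cases hf : f j <;> simp [hf, Nat.one_shiftLeft]
    · have h1 : (decide (j < n + 1)) = decide (j < n) := by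
        by_cases h : j < n
        · simp [h]; omega
        · simp [h]; omega
      have h2 : (bif f n then 1 <<< n else 0).testBit j = false := by
        by_cases hf : f n
        · simp [hf, Nat.one_shiftLeft, Nat.testBit_two_pow]; omega
        · simp [hf]
      rw [h1, h2, Bool.or_false]

/-- Reflection of a coordinate about 16 (on the torus `ℤ/32`). -/
def fl (b : Bool) (x : Nat) : Nat := bif b then (32 - x) % 32 else x

/-- Action on cell codes: swap the coordinates if `sw`, then reflect the first coordinate if
`fx` and the second if `fy`. -/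
def mapCell (sw fx fy : Bool) (c : Nat) : Nat :=
  fl fx (bif sw then c / 32 else c % 32) + 32 * fl fy (bif sw then c % 32 else c / 32)

/-- The inverse symmetry. -/
def invCell (sw fx fy : Bool) (c : Nat) : Nat :=
  mapCell sw (bif sw then fy else fx) (bif sw then fx else fy) c

/-- Action on orientation codes. -/
def mapOri (sw fx fy : Bool) (o : Nat) : Nat :=
  (bif (bif sw then !(Nat.ble 4 o) else Nat.ble 4 o) then 4 else 0) +
  (bif xor (bif sw then !(Nat.beq (o &&& 1) 0) else !(Nat.beq (o &&& 2) 0)) fx then 2 else 0) +
  (bif xor (bif sw then !(Nat.beq (o &&& 2) 0) else !(Nat.beq (o &&& 1) 0)) fy then 1 else 0)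

/-- Action on certificates. -/
def mapAlts (sw fx fy : Bool) : Alts → Alts
  | .nil => .nil
  | .leaf t o rest => .leaf (mapCell sw fx fy t) (mapOri sw fx fy o) (mapAlts sw fx fy rest)
  | .node c sub rest =>
      .node (mapCell sw fx fy c) (mapAlts sw fx fy sub) (mapAlts sw fx fy rest)

/-- Action on bitmasks (bits `>= 1024` are dropped). -/
def mapMask (sw fx fy : Bool) (M : Nat) : Nat :=
  ofFn (fun j => M.testBit (invCell sw fx fy j)) 1024

/-- The cells in the rows and columns `0 .. 4` of the window. -/
def border : Nat := ofFn (fun j => Nat.ble (j % 32) 4 || Nat.ble (j / 32) 4) 1024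

/-! ### Cells -/

theorem fl_lt (b : Bool) {x : Nat} (hx : x < 32) : fl b x < 32 := by
  cases b <;> (simp only [fl, cond_true, cond_false]; omega)

theorem fl_fl (b : Bool) {x : Nat} (hx : x < 32) : fl b (fl b x) = x := by
  cases b
  · rfl
  · simp only [fl, cond_true]
    omega

theorem add_mul_mod32 {a : Nat} (b : Nat) (ha : a < 32) : (a + 32 * b) % 32 = a := by omega

theorem add_mul_div32 {a : Nat} (b : Nat) (ha : a < 32) : (a + 32 * b) / 32 = b := by omega

theorem mapCell_mod (sw fx fy : Bool) {c : Nat} (hc : c < 1024) :
    mapCell sw fx fy c % 32 = fl fx (bif sw then c / 32 else c % 32) := by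
  have h1 : c / 32 < 32 := by omega
  have h2 : c % 32 < 32 := by omega
  rw [mapCell]
  apply add_mul_mod32
  apply fl_lt
  cases sw <;> simp only [cond_true, cond_false] <;> assumption

theorem mapCell_div (sw fx fy : Bool) {c : Nat} (hc : c < 1024) :
    mapCell sw fx fy c / 32 = fl fy (bif sw then c % 32 else c / 32) := by
  have h1 : c / 32 < 32 := by omega
  have h2 : c % 32 < 32 := by omega
  rw [mapCell]
  apply add_mul_div32
  apply fl_lt
  cases sw <;> simp only [cond_true, cond_false] <;> assumption

theorem mapCell_lt (sw fx fy : Bool) {c : Nat} (hc : c < 1024) : mapCell sw fx fy c < 1024 := by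
  have h1 : c / 32 < 32 := by omega
  have h2 : c % 32 < 32 := by omega
  have h3 : fl fx (bif sw then c / 32 else c % 32) < 32 := by
    apply fl_lt; cases sw <;> simp only [cond_true, cond_false] <;> assumption
  have h4 : fl fy (bif sw then c % 32 else c / 32) < 32 := by
    apply fl_lt; cases sw <;> simp only [cond_true, cond_false] <;> assumption
  rw [mapCell]
  omega

theorem invCell_lt (sw fx fy : Bool) {c : Nat} (hc : c < 1024) : invCell sw fx fy c < 1024 :=
  mapCell_lt _ _ _ hc

theorem invCell_mapCell (sw fx fy : Bool) {c : Nat} (hc : c < 1024) :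
    invCell sw fx fy (mapCell sw fx fy c) = c := by
  have h1 : c / 32 < 32 := by omega
  have h2 : c % 32 < 32 := by omega
  have hm := mapCell_lt sw fx fy hc
  have e1 := mapCell_mod sw fx fy hc
  have e2 := mapCell_div sw fx fy hc
  rw [invCell]
  conv_lhs => rw [mapCell]
  rw [e1, e2]
  cases sw
  · simp only [cond_false]
    rw [fl_fl fx h2, fl_fl fy h1]
    omega
  · simp only [cond_true]
    rw [fl_fl fy h2, fl_fl fx h1]
    omega

theorem mapCell_invCell (sw fx fy : Bool) {c : Nat} (hc : c < 1024) :
    mapCell sw fx fy (invCell sw fx fy c) = c := by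
  have h1 : c / 32 < 32 := by omega
  have h2 : c % 32 < 32 := by omega
  have hm := invCell_lt sw fx fy hc
  have e1 := mapCell_mod sw (bif sw then fy else fx) (bif sw then fx else fy) hc
  have e2 := mapCell_div sw (bif sw then fy else fx) (bif sw then fx else fy) hc
  conv_lhs => rw [mapCell]
  rw [invCell, e1, e2]
  cases sw
  · simp only [cond_false]
    rw [fl_fl fx h2, fl_fl fy h1]
    omega
  · simp only [cond_true]
    rw [fl_fl fx h2, fl_fl fy h1]
    omega

/-! ### Masks -/

theorem testBit_mapMask (sw fx fy : Bool) (M j : Nat) :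
    (mapMask sw fx fy M).testBit j = (decide (j < 1024) && M.testBit (invCell sw fx fy j)) := by
  rw [mapMask, testBit_ofFn]

theorem testBit_mapMask_mapCell (sw fx fy : Bool) (M : Nat) {c : Nat} (hc : c < 1024) :
    (mapMask sw fx fy M).testBit (mapCell sw fx fy c) = M.testBit c := by
  rw [testBit_mapMask, invCell_mapCell sw fx fy hc]
  simp [mapCell_lt sw fx fy hc]

theorem mapMask_zero (sw fx fy : Bool) : mapMask sw fx fy 0 = 0 := by
  apply Nat.eq_of_testBit_eq
  intro j
  simp [testBit_mapMask]

theorem mapMask_or (sw fx fy : Bool) (a b : Nat) :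
    mapMask sw fx fy (a ||| b) = mapMask sw fx fy a ||| mapMask sw fx fy b := by
  apply Nat.eq_of_testBit_eq
  intro j
  simp only [testBit_mapMask, Nat.testBit_or, Bool.and_or_distrib_left]

theorem mapMask_and (sw fx fy : Bool) (a b : Nat) :
    mapMask sw fx fy (a &&& b) = mapMask sw fx fy a &&& mapMask sw fx fy b := by
  apply Nat.eq_of_testBit_eq
  intro j
  simp only [testBit_mapMask, Nat.testBit_and]
  cases decide (j < 1024) <;> simp

theorem mapMask_bit (sw fx fy : Bool) {c : Nat} (hc : c < 1024) :
    mapMask sw fx fy (1 <<< c) = 1 <<< mapCell sw fx fy c := by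
  apply Nat.eq_of_testBit_eq
  intro j
  rw [testBit_mapMask, Nat.one_shiftLeft, Nat.one_shiftLeft, Nat.testBit_two_pow,
    Nat.testBit_two_pow]
  by_cases hj : j < 1024
  · have h1 := mapCell_invCell sw fx fy hj
    have h2 := invCell_mapCell sw fx fy hc
    by_cases h : c = invCell sw fx fy j
    · subst h
      simp [hj, h1]
    · have : ¬ mapCell sw fx fy c = j := by
        intro h'
        apply h
        rw [← h', h2]
      simp [hj, h, this]
  · have h1 := mapCell_lt sw fx fy hc
    have : ¬ mapCell sw fx fy c = j := by omega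
    simp [hj, this]

theorem mapMask_full (sw fx fy : Bool) : mapMask sw fx fy (2 ^ 1024 - 1) = 2 ^ 1024 - 1 := by
  apply Nat.eq_of_testBit_eq
  intro j
  rw [testBit_mapMask, Nat.testBit_two_pow_sub_one, Nat.testBit_two_pow_sub_one]
  by_cases hj : j < 1024
  · simp [hj, invCell_lt sw fx fy hj]
  · simp [hj]

/-! ### Leaves -/

/-- No bit of `X` below 1024 lies in the rows/columns `0 .. 4`. -/
def Good (X : Nat) : Prop := ∀ j, j < 1024 → X.testBit j = true → 5 ≤ j % 32 ∧ 5 ≤ j / 32

theorem good_of_border {X : Nat} (h : X &&& border = 0) : Good X := by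
  intro j hj hb
  by_contra hcon
  have h1 : (X &&& border).testBit j = true := by
    rw [Nat.testBit_and, hb, border, testBit_ofFn]
    simp only [Bool.true_and, Bool.and_eq_true, decide_eq_true_eq, Bool.or_eq_true, Nat.ble_eq]
    omega
  rw [h, Nat.zero_testBit] at h1
  exact Bool.false_ne_true h1

theorem Good.mono {X Y : Nat} (h : Good Y) (hXY : ∀ j, X.testBit j = true → Y.testBit j = true) :
    Good X := fun j hj hb => h j hj (hXY j hb)

theorem leafCell_zero (tx ty o : Nat) : leafCell tx ty o 0 0 = tx + 32 * ty := by
  simp [leafCell]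

theorem ori_bits : ∀ sw fx fy : Bool, ∀ o, o < 8 →
    Nat.ble 4 (mapOri sw fx fy o) = (bif sw then !(Nat.ble 4 o) else Nat.ble 4 o) ∧
    Nat.beq (mapOri sw fx fy o &&& 2) 0 =
      !(xor (bif sw then !(Nat.beq (o &&& 1) 0) else !(Nat.beq (o &&& 2) 0)) fx) ∧
    Nat.beq (mapOri sw fx fy o &&& 1) 0 =
      !(xor (bif sw then !(Nat.beq (o &&& 2) 0) else !(Nat.beq (o &&& 1) 0)) fy) ∧
    mapOri sw fx fy o ≤ 7 := by
  decide +kernel

theorem mapCell_add (sw fx fy : Bool) (u v : Nat) (hu : u < 32) :
    mapCell sw fx fy (u + 32 * v) =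
      fl fx (bif sw then v else u) + 32 * fl fy (bif sw then u else v) := by
  rw [mapCell, add_mul_mod32 v hu, add_mul_div32 v hu]

theorem leafCell_map (sw fx fy : Bool) {t o px py : Nat} (ho : o ≤ 7)
    (h1 : 5 ≤ t % 32) (h2 : t % 32 ≤ 27) (h3 : 5 ≤ t / 32) (h4 : t / 32 ≤ 27)
    (hpx : px ≤ 4) (hpy : py ≤ 4) :
    leafCell (mapCell sw fx fy t % 32) (mapCell sw fx fy t / 32) (mapOri sw fx fy o) px py =
      mapCell sw fx fy (leafCell (t % 32) (t / 32) o px py) ∧
      leafCell (t % 32) (t / 32) o px py < 1024 := by
  have ht : t < 1024 := by omega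
  rw [mapCell_mod sw fx fy ht, mapCell_div sw fx fy ht]
  clear ht
  generalize t % 32 = x at *
  generalize t / 32 = y at *
  obtain ⟨e1, e2, e3, -⟩ := ori_bits sw fx fy o (by omega)
  unfold leafCell
  rw [e1, e2, e3]
  generalize Nat.ble 4 o = b2
  generalize Nat.beq (o &&& 2) 0 = n1
  generalize Nat.beq (o &&& 1) 0 = n0
  cases sw <;> cases fx <;> cases fy <;> cases b2 <;> cases n1 <;> cases n0 <;>
    simp only [cond_true, cond_false, Bool.not_true, Bool.not_false, Bool.xor_false,
      Bool.xor_true] <;>
    refine ⟨?_, by omega⟩ <;>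
    rw [mapCell_add _ _ _ _ _ (by omega)] <;>
    simp only [fl, cond_true, cond_false] <;> omega

theorem fl_bounds (b : Bool) {x : Nat} (h1 : 5 ≤ x) (h2 : x ≤ 27) :
    4 ≤ fl b x ∧ fl b x ≤ 27 := by
  cases b <;> simp only [fl, cond_true, cond_false] <;> omega

theorem leafOK_map (sw fx fy : Bool) {M t o : Nat} (h : leafOK M t o = true) (hg : Good M) :
    leafOK (mapMask sw fx fy M) (mapCell sw fx fy t) (mapOri sw fx fy o) = true := by
  unfold leafOK at h ⊢
  simp only [Bool.and_eq_true, Nat.ble_eq] at h ⊢
  obtain ⟨⟨⟨⟨⟨⟨⟨⟨⟨⟨ho, a1⟩, a2⟩, a3⟩, a4⟩, b1⟩, b2⟩, b3⟩, b4⟩, b5⟩, b6⟩ := h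
  have ht : t < 1024 := by omega
  have hz : leafCell (t % 32) (t / 32) o 0 0 = t := by rw [leafCell_zero]; omega
  obtain ⟨g1, g2⟩ := hg t ht (hz ▸ b1)
  have tb : ∀ px py, px ≤ 4 → py ≤ 4 →
      M.testBit (leafCell (t % 32) (t / 32) o px py) = true →
      (mapMask sw fx fy M).testBit (leafCell (mapCell sw fx fy t % 32)
        (mapCell sw fx fy t / 32) (mapOri sw fx fy o) px py) = true := by
    intro px py hpx hpy hb
    obtain ⟨e, hlt⟩ := leafCell_map sw fx fy (px := px) (py := py) ho g1 a2 g2 a4 hpx hpy
    rw [e, testBit_mapMask_mapCell sw fx fy M hlt]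
    exact hb
  have hm := mapCell_mod sw fx fy ht
  have hd := mapCell_div sw fx fy ht
  have o7 := (ori_bits sw fx fy o (by omega)).2.2.2
  have bx : 4 ≤ mapCell sw fx fy t % 32 ∧ mapCell sw fx fy t % 32 ≤ 27 := by
    rw [hm]
    cases sw
    · exact fl_bounds fx g1 a2
    · exact fl_bounds fx g2 a4
  have by' : 4 ≤ mapCell sw fx fy t / 32 ∧ mapCell sw fx fy t / 32 ≤ 27 := by
    rw [hd]
    cases sw
    · exact fl_bounds fy g2 a4
    · exact fl_bounds fy g1 a2
  exact ⟨⟨⟨⟨⟨⟨⟨⟨⟨⟨o7, bx.1⟩, bx.2⟩, by'.1⟩, by'.2⟩, tb 0 0 (by omega) (by omega) b1⟩,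
    tb 1 0 (by omega) (by omega) b2⟩, tb 2 0 (by omega) (by omega) b3⟩,
    tb 3 0 (by omega) (by omega) b4⟩, tb 3 1 (by omega) (by omega) b5⟩,
    tb 4 1 (by omega) (by omega) b6⟩

/-! ### The checker -/

theorem chk_leaf_eq' (d M t o : Nat) (rest : Alts) :
    chk d M (.leaf t o rest) =
      bif leafOK M t o then
        match chk d M rest with
        | some p => some (0, p.2)
        | none => none
      else none := by
  rfl

theorem chk_node_zero' (M c : Nat) (sub rest : Alts) : chk 0 M (.node c sub rest) = none := by
  rfl

theorem chk_node_succ' (d M c : Nat) (sub rest : Alts) :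
    chk (d + 1) M (.node c sub rest) =
      bif Nat.blt c 1024 && !(M.testBit c) then
        match chk d (M ||| 1 <<< c) sub with
        | some q =>
            bif Nat.beq q.1 0 then
              match chk (d + 1) M rest with
              | some p => some (p.1 &&& (q.2 ||| 1 <<< c), p.2 ||| (q.2 ||| 1 <<< c))
              | none => none
            else none
        | none => none
      else none := by
  rfl

/-- Equivariance of `chk` under the symmetries of the window. -/
theorem chk_map (sw fx fy : Bool) : ∀ (T : Alts) (d M I U : Nat),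
    chk d M T = some (I, U) → Good M → Good U →
    chk d (mapMask sw fx fy M) (mapAlts sw fx fy T) =
      some (mapMask sw fx fy I, mapMask sw fx fy U) := by
  intro T
  induction T with
  | nil =>
    intro d M I U h _ _
    have h' : chk d M .nil = some (2 ^ 1024 - 1, 0) := by rw [chk]
    rw [h'] at h
    simp only [Option.some.injEq, Prod.mk.injEq] at h
    obtain ⟨rfl, rfl⟩ := h
    have h2 : chk d (mapMask sw fx fy M) .nil = some (2 ^ 1024 - 1, 0) := by rw [chk]
    rw [mapAlts, h2, mapMask_full, mapMask_zero]
  | leaf t o rest ih =>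
    intro d M I U h hM hU
    rw [chk_leaf_eq'] at h
    cases hl : leafOK M t o with
    | false => rw [hl] at h; simp at h
    | true =>
      rw [hl, cond_true] at h
      cases hr : chk d M rest with
      | none => rw [hr] at h; simp at h
      | some p =>
        rw [hr] at h
        simp only [Option.some.injEq, Prod.mk.injEq] at h
        obtain ⟨rfl, rfl⟩ := h
        have ih' := ih d M p.1 p.2 hr hM hU
        rw [mapAlts, chk_leaf_eq', leafOK_map sw fx fy hl hM, cond_true, ih', mapMask_zero]
  | node c sub rest ihs ihr =>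
    intro d M I U h hM hU
    cases d with
    | zero => rw [chk_node_zero'] at h; cases h
    | succ d =>
      rw [chk_node_succ'] at h
      cases hc : (Nat.blt c 1024 && !(M.testBit c)) with
      | false => rw [hc] at h; simp at h
      | true =>
        rw [hc, cond_true] at h
        cases hs : chk d (M ||| 1 <<< c) sub with
        | none => rw [hs] at h; simp at h
        | some q =>
          rw [hs] at h
          dsimp only at h
          cases hq : Nat.beq q.1 0 with
          | false => rw [hq] at h; simp at h
          | true =>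
            rw [hq, cond_true] at h
            cases hr : chk (d + 1) M rest with
            | none => rw [hr] at h; simp at h
            | some p =>
              rw [hr] at h
              simp only [Option.some.injEq, Prod.mk.injEq] at h
              obtain ⟨rfl, rfl⟩ := h
              have hc' : c < 1024 ∧ M.testBit c = false := by
                simpa [Nat.blt_eq] using hc
              have hq0 : q.1 = 0 := Nat.eq_of_beq_eq_true hq
              have hUq : Good q.2 := hU.mono (fun j hj => by simp [Nat.testBit_or, hj])
              have hUp : Good p.2 := hU.mono (fun j hj => by simp [Nat.testBit_or, hj])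
              have hMc : Good (M ||| 1 <<< c) := by
                intro j hj hb
                rw [Nat.testBit_or] at hb
                rcases Bool.or_eq_true _ _ |>.mp hb with hb | hb
                · exact hM j hj hb
                · exact hU j hj (by simp [Nat.testBit_or, hb])
              have ihs' := ihs d (M ||| 1 <<< c) q.1 q.2 hs hMc hUq
              have ihr' := ihr (d + 1) M p.1 p.2 hr hM hUp
              rw [mapMask_or, mapMask_bit sw fx fy hc'.1] at ihs'
              have hc2 : (Nat.blt (mapCell sw fx fy c) 1024 &&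
                  !((mapMask sw fx fy M).testBit (mapCell sw fx fy c))) = true := by
                rw [testBit_mapMask_mapCell sw fx fy M hc'.1, hc'.2]
                simp [Nat.blt_eq, mapCell_lt sw fx fy hc'.1]
              rw [mapAlts, chk_node_succ', hc2, cond_true, ihs']
              dsimp only
              rw [hq0, mapMask_zero]
              have h00 : Nat.beq 0 0 = true := rfl
              rw [h00, cond_true, ihr']
              dsimp only
              rw [mapMask_and, mapMask_or, mapMask_or, mapMask_or, mapMask_bit sw fx fy hc'.1]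

/-- `chk_map` with the side condition as one bitmask test. -/
theorem chk_map_border (sw fx fy : Bool) {d M I U : Nat} {T : Alts}
    (h : chk d M T = some (I, U)) (hb : (M ||| U) &&& border = 0) :
    chk d (mapMask sw fx fy M) (mapAlts sw fx fy T) =
      some (mapMask sw fx fy I, mapMask sw fx fy U) :=
  chk_map sw fx fy T d M I U h
    ((good_of_border hb).mono (fun j hj => by simp [Nat.testBit_or, hj]))
    ((good_of_border hb).mono (fun j hj => by simp [Nat.testBit_or, hj]))

theorem mapCell_centre (sw fx fy : Bool) : mapCell sw fx fy 528 = 528 := by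
  cases sw <;> cases fx <;> cases fy <;> rfl

/-- The form used for the symmetric images of a first-reply alternative: the position has the
centre stone (code 528) and Maker's second stone `c`. -/
theorem chk_img (sw fx fy : Bool) (d c : Nat) (sub : Alts) (U : Nat)
    (hc : Nat.blt c 1024 = true)
    (h : chk d (1 <<< 528 ||| 1 <<< c) sub = some (0, U))
    (hb : ((1 <<< 528 ||| 1 <<< c) ||| U) &&& border = 0) :
    chk d (1 <<< 528 ||| 1 <<< mapCell sw fx fy c) (mapAlts sw fx fy sub) =
      some (0, mapMask sw fx fy U) := by
  have hc' : c < 1024 := by simpa [Nat.blt_eq] using hc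
  have := chk_map_border sw fx fy h hb
  rw [mapMask_or, mapMask_bit sw fx fy hc', mapMask_bit sw fx fy (by norm_num : 528 < 1024),
    mapCell_centre, mapMask_zero] at this
  exact this

end Crest.Agent.Helper21.SnakySym
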