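import Mathlib
import Crest.Agent.Helper7.TreeDefs
import Crest.Agent.Helper7.AUCGame
import Crest.Agent.Helper7.AUCTransfer
import Crest.Agent.Helper8.TreeBasic
import Crest.Agent.Helper27.LpSum

/-!
Row 125, module [S0166-SUMGAME]: the `ℓ²`-sum `SumSpace` of the blocks is separable,
infinite-dimensional, and admits no equivalent asymptotically uniformly convex norm as soon as
the vector player has `n`-round strategies in the blocks with constants independent of `n`.

Elaboration note: an instance problem on `Block (n + 1)` that is solved while the numeral `1` is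
still being elaborated (e.g. `AUC.Good C ρ n S` with `S : Block (n + 1)` and implicit `V`) can
take more than a minute; hence the generic index function `k` below and the explicit
`(V := Block (n + 1))` in `sum_not_auc_of`.
-/

namespace Crest.Agent.Helper21

open Crest.Agent.Helper7 Crest.Agent.Helper7.Tree

/-- The `ℓ²`-sum of the blocks is separable. -/
theorem sum_separable : TopologicalSpace.SeparableSpace SumSpace := by
  have : ∀ n : ℕ, TopologicalSpace.SeparableSpace (Block n) :=
    fun n => Crest.Agent.Helper8.block_separable n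
  exact Crest.Agent.Helper27.separableSpace_lp_two

/-- The `ℓ²`-sum of the blocks is infinite-dimensional. -/
theorem sum_infinite_dim : ¬ FiniteDimensional ℝ SumSpace :=
  Crest.Agent.Helper27.not_finiteDimensional_lp_two (E := fun n : ℕ => Block n) 1
    (Crest.Agent.Helper8.block_infinite_dim 0)

/-- The canonical isometric embedding of the `n`-th block into the `ℓ²`-sum. -/
noncomputable def blockEmb (n : ℕ) : Block n →ₗᵢ[ℝ] SumSpace where
  toLinearMap := lp.lsingle (𝕜 := ℝ) (E := fun n : ℕ => Block n) 2 n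
  norm_map' := fun x => lp.norm_single (E := fun n : ℕ => Block n) (p := 2) (by norm_num) n x

theorem blockEmb_apply (n : ℕ) (x : Block n) :
    blockEmb n x = lp.single (E := fun n : ℕ => Block n) 2 n x := rfl

/-- Strategies in the blocks `Block (k n)` give strategies in the `ℓ²`-sum. -/
theorem sum_good_of {C ρ : ℝ} (k : ℕ → ℕ)
    (hblock : ∀ n : ℕ, ∃ S : Block (k n), ρ ≤ ‖S‖ ∧ ‖S‖ ≤ C ∧ AUC.Good C ρ n S) :
    ∀ n : ℕ, ∃ S : SumSpace, ρ ≤ ‖S‖ ∧ ‖S‖ ≤ C ∧ AUC.Good C ρ n S := by
  intro n
  obtain ⟨S, h1, h2, h3⟩ := hblock n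
  have e1 : ‖blockEmb (k n) S‖ = ‖S‖ := (blockEmb (k n)).norm_map S
  refine ⟨blockEmb (k n) S, ?_, ?_, AUC.Good.map (blockEmb (k n)) h3⟩
  · rw [e1]; exact h1
  · rw [e1]; exact h2

/-- **Sum game**, generic index function: if for every `n` some block `Block (k n)` carries an
`n`-round strategy with constants `C`, `ρ` independent of `n`, then no equivalent norm on the
`ℓ²`-sum is asymptotically uniformly convex. -/
theorem sum_not_auc_of_k {C ρ : ℝ} (hρ : 0 < ρ) (k : ℕ → ℕ)
    (hblock : ∀ n : ℕ, ∃ S : Block (k n), ρ ≤ ‖S‖ ∧ ‖S‖ ≤ C ∧ AUC.Good C ρ n S) :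
    ∀ N : SumSpace → ℝ, AUC.IsEquivNorm N → ¬ AUC.IsAUC N :=
  AUC.not_isAUC_of_good (C := C) hρ (sum_good_of k hblock)

/-- **Sum game.** If every block `Block (n + 1)` carries an `n`-round strategy with constants
`C`, `ρ` independent of `n`, then no equivalent norm on the `ℓ²`-sum is asymptotically uniformly
convex. -/
theorem sum_not_auc_of {C ρ : ℝ} (hρ : 0 < ρ)
    (hblock : ∀ n : ℕ, ∃ S : Block (n + 1), ρ ≤ ‖(S : Block (n + 1))‖ ∧
      ‖(S : Block (n + 1))‖ ≤ C ∧ AUC.Good (V := Block (n + 1)) C ρ n S) :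
    ∀ N : SumSpace → ℝ, AUC.IsEquivNorm N → ¬ AUC.IsAUC N :=
  sum_not_auc_of_k hρ (fun n => n + 1) hblock

end Crest.Agent.Helper21
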